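import Vale.Agent.P040.Crit

/-!
# P040: rectilinear drawings of the complete bipartite graph, excess over Zarankiewicz's number
-/

namespace Vale.Agent.Results.P040.RectilinearExcess

open Vale.Agent.P040 in
/-- Rectilinear drawings of `K_{n,m}` in general position: the exact excess of the number of
crossings over `⌊n/2⌋⌊(n-1)/2⌋⌊m/2⌋⌊(m-1)/2⌋`, and three classes of drawings for which Zarankiewicz's
lower bound follows. -/
theorem result (n m : ℕ) (A : Fin n → ℝ × ℝ) (B : Fin m → ℝ × ℝ) (h : GenPos A B) :
    -- the excess formula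
    ((crossings A B : ℤ) + hh m * hh n = dd m * dd n + monoCrossings A B +
      pairSum (fun a a' => (hh m : ℤ) - side A B a a' * (m - side A B a a')) +
      pairSum (fun b b' => (hh n : ℤ) - side B A b b' * (n - side B A b b'))) ∧
    -- all terms of the two sums are nonnegative
    (∀ a a', (side A B a a' : ℤ) * (m - side A B a a') ≤ hh m) ∧
    (∀ b b', (side B A b b' : ℤ) * (n - side B A b b') ≤ hh n) ∧
    -- numerical criterion
    (hh m * hh n ≤ monoCrossings A B + missing A B * hh m + missing B A * hh n →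
      dd m * dd n ≤ crossings A B) ∧
    -- halves `S` of `A` and `T` of `B`
    (∀ (S : Finset (Fin n)) (T : Finset (Fin m)), S.card = n / 2 → T.card = m / 2 →
      (∀ a ∈ S, ∀ a' ∉ S,
        ((∀ b, 0 < orient (A a) (A a') (B b)) ∨ (∀ b, orient (A a) (A a') (B b) < 0)) ∨
        (∀ b ∈ T, ∀ b' ∉ T,
          (openSegment ℝ (A a) (A a') ∩ openSegment ℝ (B b) (B b')).Nonempty)) →
      dd m * dd n ≤ crossings A B) ∧
    -- separated classes, `B` in a strip with half of `A` on each side
    (∀ (f g : (ℝ × ℝ) →ₗ[ℝ] ℝ) (S : Finset (Fin n)), S.card = n / 2 →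
      (∀ a ∈ S, ∀ b, f (B b) < f (A a)) → (∀ a ∉ S, ∀ b, f (A a) < f (B b)) →
      (∀ a b, g (A a) < g (B b)) → dd m * dd n ≤ crossings A B) :=
  ⟨excess A B h, fun _ _ => sep_le m _, fun _ _ => sep_le n _, criterion A B h,
    fun S T hS hT hST => class_bound A B h S T hS hT hST,
    fun f g S hS h1 h2 h3 => strip_bound A B h f g S hS h1 h2 h3⟩

end Vale.Agent.Results.P040.RectilinearExcess
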